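import Mathlib

/-!
# R22 (S0029): power-free values of polynomials, `k = d - 2`, `4 ≤ d ≤ 8`.  Definitions.

Overview.  `F` monic irreducible of degree `d` with roots `θ i`.  If `p^k ∣ F n`, `p > C X`, `|n| ≍ X`,
then `α β^k = μ (n - θ)` in `ℤ[θ]` with primitive integer vectors `α, β`, `‖β‖^d ≍ p` (`SolSet`).
One of `α, β` (called `η`, the other one is `γ`) is put on a rational line `η = l1 e1 + l2 e2` of small
height (`LineCfg`); on each line a real determinant method gives `X^m` auxiliary curves (`CurveCfg`),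
and a `q`-adic determinant method bounds the points on one curve.
Unified notation: `γ^p η^q = μ (n - θ)` with `(p,q) = (1,k)` (β-side) or `(k,1)` (α-side).

DO NOT EDIT this file (everything depends on it); put new general lemmas in your own file.
-/

namespace Crest.Agent.R22

open Polynomial

/-- A monic irreducible integer polynomial of degree `d ≥ 4` with its complex roots. -/
structure NF (d : ℕ) where
  F : ℤ[X]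
  θ : Fin d → ℂ
  monic : F.Monic
  irr : Irreducible (F.map (Int.castRingHom ℚ))
  deg : F.natDegree = d
  inj : Function.Injective θ
  root : ∀ i, aeval (θ i) F = 0
  four_le : 4 ≤ d

variable {d : ℕ}

/-- The `i`-th conjugate of the element `∑ a s θ^s`. -/
noncomputable def NF.emb (N : NF d) (a : Fin d → ℤ) (i : Fin d) : ℂ :=
  ∑ s, (a s : ℂ) * N.θ i ^ (s : ℕ)

/-- Inverse Vandermonde matrix: conjugates ↦ coordinates. -/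
noncomputable def NF.cinv (N : NF d) : Matrix (Fin d) (Fin d) ℂ := (Matrix.vandermonde N.θ)⁻¹

/-- Coordinates of a vector of conjugates (in any commutative `ℂ`-algebra). -/
noncomputable def NF.co (N : NF d) {Ω : Type} [CommRing Ω] [Algebra ℂ Ω] (z : Fin d → Ω)
    (s : Fin d) : Ω :=
  ∑ i, algebraMap ℂ Ω (N.cinv s i) * z i

/-- `2 × 2` minors of the conjugates. -/
noncomputable def NF.PP (N : NF d) (e1 e2 : Fin d → ℤ) (i j : Fin d) : ℂ :=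
  N.emb e1 i * N.emb e2 j - N.emb e1 j * N.emb e2 i

/-- Primitive integer vector. -/
def Prim (a : Fin d → ℤ) : Prop := ∃ u : Fin d → ℤ, ∑ s, u s * a s = 1

/-- Integer `2 × 2` minor. -/
def minor (e1 e2 : Fin d → ℤ) (s t : Fin d) : ℤ := e1 s * e2 t - e1 t * e2 s

/-- A family of solutions `α β^(d-2) = μ (n - θ)`, `n ∈ S`. -/
structure SolSet (N : NF d) (c X : ℝ) (μ : ℤ) (S : Finset ℤ) (α β : ℤ → Fin d → ℤ)
    (pr : ℤ → ℕ) : Prop where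
  mu0 : μ ≠ 0
  mule : c * |(μ : ℝ)| ≤ 1
  rng : ∀ n ∈ S, X ≤ |(n : ℝ)| ∧ |(n : ℝ)| ≤ 2 * X
  eq : ∀ n ∈ S, ∀ i, N.emb (α n) i * N.emb (β n) i ^ (d - 2) = (μ : ℂ) * ((n : ℂ) - N.θ i)
  primA : ∀ n ∈ S, Prim (α n)
  primB : ∀ n ∈ S, Prim (β n)
  prime : ∀ n ∈ S, (pr n).Prime
  big : ∀ n ∈ S, X < c ^ 2 * (pr n : ℝ)
  dvdF : ∀ n ∈ S, (pr n : ℤ) ∣ N.F.eval n
  dvdB : ∀ n ∈ S, (pr n : ℤ) ∣ ∑ s, β n s * n ^ (s : ℕ)
  lowA : ∀ n ∈ S, ∀ i, c * ‖α n‖ ≤ ‖N.emb (α n) i‖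
  lowB : ∀ n ∈ S, ∀ i, c * ‖β n‖ ≤ ‖N.emb (β n) i‖
  szB : ∀ n ∈ S, c * (pr n : ℝ) ≤ ‖β n‖ ^ d

/-- A reduced basis of a primitive rank-two lattice. -/
structure GoodPair (e1 e2 : Fin d → ℤ) : Prop where
  ne : e1 ≠ 0
  le : ‖e1‖ ≤ ‖e2‖
  red : ∃ s, |(e2 s : ℝ)| ≤ ‖e1‖
  gcd : ∃ u : Fin d → Fin d → ℤ, ∑ s, ∑ t, u s t * minor e1 e2 s t = 1
  big : ∃ s t, ‖e1‖ * ‖e2‖ ≤ 2 * |(minor e1 e2 s t : ℝ)|

/-- Solutions `γ^p (l1 e1 + l2 e2)^q = μ (n - θ)` on one line, in the chart `|σ| ≤ 1`. -/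
structure LineCfg (N : NF d) (p q : ℕ) (c X s1 s2 : ℝ) (μ : ℤ) (e1 e2 : Fin d → ℤ)
    (S : Finset ℤ) (l1 l2 : ℤ → ℤ) (g : ℤ → Fin d → ℤ) : Prop where
  mu0 : μ ≠ 0
  mule : c * |(μ : ℝ)| ≤ 1
  rng : ∀ n ∈ S, X ≤ |(n : ℝ)| ∧ |(n : ℝ)| ≤ 2 * X
  eq : ∀ n ∈ S, ∀ i, N.emb (g n) i ^ p * (N.emb e1 i * (l1 n : ℂ) + N.emb e2 i * (l2 n : ℂ)) ^ q
    = (μ : ℂ) * ((n : ℂ) - N.θ i)
  cop : ∀ n ∈ S, IsCoprime (l1 n) (l2 n)
  prim : ∀ n ∈ S, Prim (g n)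
  chart : ∀ n ∈ S, |(l1 n : ℝ)| * ‖e1‖ ≤ |(l2 n : ℝ)| * ‖e2‖
  low : ∀ n ∈ S, ∀ i, c * (|(l2 n : ℝ)| * ‖e2‖) ≤
    ‖N.emb e1 i * (l1 n : ℂ) + N.emb e2 i * (l2 n : ℂ)‖
  sz1 : ∀ n ∈ S, |(l2 n : ℝ)| ≤ X ^ s1 ∧ |(l2 n : ℝ)| * ‖e2‖ ≤ X ^ s1 * ‖e1‖
  sz2 : ∀ n ∈ S, ‖g n‖ ≤ X ^ s2
  e1ne : e1 ≠ 0
  e2ne : e2 ≠ 0
  esz : ‖e1‖ ≤ X ∧ ‖e2‖ ≤ X
  nd : ∀ i j, i ≠ j → N.PP e1 e2 i j ≠ 0

/-- The normalised slope `σ = l1 ‖e1‖ / (l2 ‖e2‖) ∈ [-1, 1]`. -/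
noncomputable def sig (e1 e2 : Fin d → ℤ) (l1 l2 : ℤ → ℤ) (n : ℤ) : ℝ :=
  ((l1 n : ℝ) * ‖e1‖) / ((l2 n : ℝ) * ‖e2‖)

/-- The slopes of the points of `S` lie in an interval of length `X^(-m)`. -/
def Diam (e1 e2 : Fin d → ℤ) (l1 l2 : ℤ → ℤ) (X m : ℝ) (S : Finset ℤ) : Prop :=
  ∀ n ∈ S, ∀ n' ∈ S, |sig e1 e2 l1 l2 n - sig e1 e2 l1 l2 n'| ≤ X ^ (-m)

/-- An abstract curve: generators `y` in a field `Ω`, points `v P` (`P ∈ S`) satisfying every relation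
of `y` (V), linear growth of the Hilbert function (G), and a coordinate separating the points. -/
structure VG {ι κ Ω : Type} [Field Ω] [Algebra ℂ Ω] (y : ι → Ω) (S : Finset κ)
    (v : κ → ι → ℂ) (C0 : ℕ) : Prop where
  V : ∀ Ψ : MvPolynomial ι ℂ, MvPolynomial.aeval y Ψ = 0 → ∀ P ∈ S, MvPolynomial.eval (v P) Ψ = 0
  G : ∀ s : ℕ, Module.finrank ℂ ((MvPolynomial.restrictTotalDegree ι ℂ s).map
    (MvPolynomial.aeval (R := ℂ) y).toLinearMap) ≤ C0 * (s + 1)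
  sep : ∃ i, Set.InjOn (fun P => v P i) (S : Set κ)

/-- The generators `(x, n, b)`. -/
def gens {Ω : Type} (x nn : Ω) (b : Fin d → Ω) : Fin 2 ⊕ Fin d → Ω := Sum.elim ![x, nn] b

/-- The normalised coordinates `(l1 / l2, n, κ γ)` of a point. -/
noncomputable def ptv (N : NF d) (l1 l2 : ℤ → ℤ) (g : ℤ → Fin d → ℤ) (κ : ℤ → ℂ) (n : ℤ) :
    Fin 2 ⊕ Fin d → ℂ :=
  gens ((l1 n : ℂ) / (l2 n : ℂ)) (n : ℂ) (fun i => κ n * N.emb (g n) i)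

/-- The relations `b^p (e1 x + e2)^q = n - θ` of the surface attached to a line. -/
def Rel (N : NF d) (p q : ℕ) (e1 e2 : Fin d → ℤ) {Ω : Type} [CommRing Ω] [Algebra ℂ Ω]
    (x nn : Ω) (b : Fin d → Ω) : Prop :=
  ∀ i, b i ^ p * (algebraMap ℂ Ω (N.emb e1 i) * x + algebraMap ℂ Ω (N.emb e2 i)) ^ q
    = nn - algebraMap ℂ Ω (N.θ i)

/-- A generic point of the surface. -/
structure SurfCfg (N : NF d) (p q : ℕ) (e1 e2 : Fin d → ℤ) {Ω : Type} [Field Ω] [Algebra ℂ Ω]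
    (x nn : Ω) (b : Fin d → Ω) : Prop where
  ind : AlgebraicIndependent ℂ ![x, nn]
  rel : Rel N p q e1 e2 x nn b

/-- A generic point of a curve on the surface through all points of `S`. -/
structure CurveCfg (N : NF d) (p q : ℕ) (μ : ℤ) (e1 e2 : Fin d → ℤ) (S : Finset ℤ)
    (l1 l2 : ℤ → ℤ) (g : ℤ → Fin d → ℤ) {Ω : Type} [Field Ω] [Algebra ℂ Ω]
    (x nn : Ω) (b : Fin d → Ω) (κ : ℤ → ℂ) (C0 : ℕ) : Prop where
  rel : Rel N p q e1 e2 x nn b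
  bne : ∀ i, b i ≠ 0
  kap : ∀ n ∈ S, κ n ^ p * (μ : ℂ) = (l2 n : ℂ) ^ q
  vg : VG (gens x nn b) S (ptv N l1 l2 g κ) C0

/-- The points of `S` lie on one curve. -/
def HasCurve (N : NF d) (p q : ℕ) (μ : ℤ) (e1 e2 : Fin d → ℤ) (l1 l2 : ℤ → ℤ)
    (g : ℤ → Fin d → ℤ) (C0 : ℕ) (S : Finset ℤ) : Prop :=
  ∃ (Ω : Type) (_ : Field Ω) (_ : Algebra ℂ Ω) (x nn : Ω) (b : Fin d → Ω) (κ : ℤ → ℂ),
    CurveCfg N p q μ e1 e2 S l1 l2 g x nn b κ C0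

/-- Forms of degree `≤ a` in `x` and homogeneous of degree `E` in `b`. -/
def Wsp {Ω : Type} [Field Ω] [Algebra ℂ Ω] (x : Ω) (b : Fin d → Ω) (a E : ℕ) : Submodule ℂ Ω :=
  Submodule.span ℂ {z | ∃ i ≤ a, ∃ m : Fin d → ℕ, ∑ s, m s = E ∧ z = x ^ i * ∏ s, b s ^ m s}

/-- Lower bound for the bigraded Hilbert function. -/
def HL {Ω : Type} [Field Ω] [Algebra ℂ Ω] (x : Ω) (b : Fin d → Ω) (cx cg CH : ℕ) : Prop :=
  ∀ a E, CH ≤ a → CH ≤ E → cx * a + cg * E ≤ Module.finrank ℂ (Wsp x b a E) + CH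

/-- The linear form `∑ L i * b i`. -/
noncomputable def lf {Ω : Type} [CommRing Ω] [Algebra ℂ Ω] (L : Fin d → ℂ) (b : Fin d → Ω) : Ω :=
  ∑ i, algebraMap ℂ Ω (L i) * b i

/-- The field generated by `x` and the ratios `b i / b j`. -/
noncomputable def Kf {Ω : Type} [Field Ω] [Algebra ℂ Ω] (x : Ω) (b : Fin d → Ω) :
    IntermediateField ℂ Ω :=
  IntermediateField.adjoin ℂ (insert x {z | ∃ i j, z = b i / b j})

/-- The degree `[K : ℂ(z)]` (for `z ∈ K`; it is `0` when infinite). -/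
noncomputable def dg {Ω : Type} [Field Ω] [Algebra ℂ Ω] (z : Ω) (K : IntermediateField ℂ Ω) : ℕ :=
  IntermediateField.relfinrank (IntermediateField.adjoin ℂ {z}) K

/-- The curve is rational with a parameter `τ = f / g0` taking rational values of height `≤ Y`. -/
def IsRat (N : NF d) (S : Finset ℤ) (l1 l2 : ℤ → ℤ) (g : ℤ → Fin d → ℤ) {Ω : Type} [Field Ω]
    [Algebra ℂ Ω] (x nn : Ω) (b : Fin d → Ω) (κ : ℤ → ℂ) (D : ℕ) (Y : ℝ) : Prop :=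
  ∃ f g0 : MvPolynomial (Fin 2 ⊕ Fin d) ℂ, f.totalDegree ≤ D ∧ g0.totalDegree ≤ D ∧
    MvPolynomial.aeval (gens x nn b) g0 ≠ 0 ∧
    (∀ n ∈ S, MvPolynomial.eval (ptv N l1 l2 g κ n) g0 ≠ 0 → ∃ t1 t2 : ℤ, t2 ≠ 0 ∧
      |(t1 : ℝ)| ≤ Y ∧ |(t2 : ℝ)| ≤ Y ∧
      MvPolynomial.eval (ptv N l1 l2 g κ n) f * t2 = MvPolynomial.eval (ptv N l1 l2 g κ n) g0 * t1) ∧
    Kf x b ≤ IntermediateField.adjoin ℂ
      {MvPolynomial.aeval (gens x nn b) f / MvPolynomial.aeval (gens x nn b) g0}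

/-- The integer row `l1^i l2^(a-i) ∏ (U γ)_s^(m s)`. -/
def rowv (U : Matrix (Fin d) (Fin d) ℤ) (l1 l2 : ℤ → ℤ) (g : ℤ → Fin d → ℤ) (a i : ℕ)
    (m : Fin d → ℕ) (n : ℤ) : ℤ :=
  l1 n ^ i * l2 n ^ (a - i) * ∏ s, (U.mulVec (g n)) s ^ m s

/-- `row = r * col * Q(u, 1/n) + error`, with `Q` of bounded degree and `ℓ¹`-norm. -/
def RowAppr (S : Finset ℤ) (u col row : ℤ → ℂ) (Y ρ : ℝ) (Dg : ℕ) (C : ℝ) : Prop :=
  ∃ (r : ℂ) (Q : MvPolynomial (Fin 2) ℂ), Q.totalDegree ≤ Dg ∧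
    ∑ m ∈ Q.support, ‖Q.coeff m‖ ≤ C ∧
    ∀ n ∈ S, ‖r * col n‖ ≤ Y ∧
      ‖row n - r * col n * MvPolynomial.eval ![u n, (n : ℂ)⁻¹] Q‖ ≤ C * Y * ρ

/-- A local chart with small parameter `u`. -/
structure Chart (N : NF d) (p q : ℕ) (K X m s1 s2 : ℝ) (S : Finset ℤ) (l1 l2 : ℤ → ℤ)
    (g : ℤ → Fin d → ℤ) (u ν κ' : ℤ → ℂ) (A W : Fin d → ℂ) (r1 r2 a1 a1' a2 a2' : ℂ) : Prop where
  rng : ∀ n ∈ S, X ≤ |(n : ℝ)|
  usz : ∀ n ∈ S, ‖u n‖ ≤ K * X ^ (-m)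
  Asz : ∀ i, ‖A i‖ ≤ K
  Wsz : ∀ i, ‖W i‖ ≤ K ∧ 1 ≤ K * ‖W i‖
  asz : ‖a1‖ ≤ K ∧ ‖a1'‖ ≤ K ∧ ‖a2‖ ≤ K ∧ ‖a2'‖ ≤ K
  l1eq : ∀ n ∈ S, (l1 n : ℂ) = r1 * ν n * (a1 + a1' * u n)
  l2eq : ∀ n ∈ S, (l2 n : ℂ) = r2 * ν n * (a2 + a2' * u n)
  nusz : ∀ n ∈ S, ‖r1 * ν n‖ ≤ K * X ^ s1 ∧ ‖r2 * ν n‖ ≤ K * X ^ s1
  geq : ∀ n ∈ S, ∀ i, N.emb (g n) i ^ p * (1 + A i * u n) ^ q
    = (κ' n * W i) ^ p * (1 - N.θ i * (n : ℂ)⁻¹)
  cls : ∀ n ∈ S, ∀ i, ‖N.emb (g n) i - κ' n * W i‖ ≤ K * X ^ (-m) * ‖κ' n‖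
  ksz : ∀ n ∈ S, ‖κ' n‖ ≤ K * X ^ s2

/-- All rows of bidegree `(a, E)` in the coordinates `U γ` are approximable with a common column
factor. -/
def AllAppr (S : Finset ℤ) (U : Matrix (Fin d) (Fin d) ℤ) (l1 l2 : ℤ → ℤ) (g : ℤ → Fin d → ℤ)
    (u : ℤ → ℂ) (X s1 s2 : ℝ) (a E T Dg : ℕ) (C : ℝ) : Prop :=
  ∃ col : ℤ → ℂ, ∀ i ≤ a, ∀ m : Fin d → ℕ, ∑ s, m s = E →
    RowAppr S u col (fun n => (rowv U l1 l2 g a i m n : ℂ))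
      (C * X ^ (a * s1 + E * s2)) (X ^ (-(T : ℝ))) Dg C

/-- Archimedean filtration of the rows of bidegree `(a, E)` on the points of a curve. -/
def ApprHyp (S : Finset ℤ) (l1 l2 : ℤ → ℤ) (g : ℤ → Fin d → ℤ) (X s1 s2 ϖ Γ Γ0 : ℝ)
    (a E T : ℕ) (Cap : ℝ) : Prop :=
  ∃ Fl : ℕ → Submodule ℂ (S → ℂ), Monotone Fl ∧
    (∀ t : ℕ, (Module.finrank ℂ (Fl t) : ℝ) ≤ Γ * t + Γ0) ∧
    ∀ i ≤ a, ∀ m : Fin d → ℕ, ∑ s, m s = E → ∃ G : ℕ → S → ℂ, (∀ t < T, G t ∈ Fl t) ∧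
      (∀ n : S, (rowv 1 l1 l2 g a i m n : ℂ) = ∑ t ∈ Finset.range (T + 1), G t n) ∧
      ∀ t ≤ T, ∀ n : S, ‖G t n‖ ≤ Cap * X ^ (a * s1 + E * s2 - ϖ * t)

/-- The binary form of degree `D` with coefficients `a`. -/
def hom {R : Type} [CommRing R] (D : ℕ) (a : ℕ → ℤ) (t1 t2 : R) : R :=
  ∑ j ∈ Finset.range (D + 1), (a j : R) * t1 ^ j * t2 ^ (D - j)

/-- The derivative of the binary form at `t` in the direction `σ`. -/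
noncomputable def homD (D : ℕ) (a : ℕ → ℤ) (t1 t2 σ1 σ2 : ℤ) : ℤ :=
  (hom D a (C t1 + C σ1 * X) (C t2 + C σ2 * X) : ℤ[X]).coeff 1

/-- Exponent vectors of the monomials of degree `E` in four variables not divisible by `Z 0 ^ 4`. -/
def Std (E : ℕ) : Finset (Fin 4 → ℕ) :=
  (Finset.piAntidiag Finset.univ E).filter fun m => m 0 < 4

/-- The unimodular change `Z = (γ 0, γ s - w s γ 0)`. -/
def Umat (w : Fin 4 → ℤ) : Matrix (Fin 4) (Fin 4) ℤ :=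
  Matrix.of fun s t => (if s = t then 1 else 0) - (if t = 0 ∧ s ≠ 0 then w s else 0)

/-- `U` applied to the coordinates of a vector of conjugates. -/
noncomputable def NF.coU (N : NF d) (U : Matrix (Fin d) (Fin d) ℤ) {Ω : Type} [CommRing Ω]
    [Algebra ℂ Ω] (z : Fin d → Ω) (s : Fin d) : Ω :=
  ∑ t, (U s t : Ω) * N.co z t

/-- The exponent of the curve theorem: `π` is admissible for degrees `(cx, cg)`, bottom level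
`w`, archimedean gain `ϖ / Γ`. -/
def CurveIneq (p q cx cg : ℕ) (w s1 s2 ϖ Γ π : ℝ) : Prop :=
  (cg * w + (q * cx + p * cg)) * (w * s2) + (q * cx + p * cg) * (q * s1 + p * s2) / 2
      - ϖ * (cg * w) ^ 2 / (2 * Γ)
    < π * (cg * w + (q * cx + p * cg)) ^ 2 / 2

/-- The exponent of the surface step: `m` is admissible for the direction `(a1, e')`. -/
def SurfIneq (d p q a1 e' : ℕ) (s1 s2 m : ℝ) : Prop :=
  9 / 4 * (a1 * s1 + p * e' * s2) ^ 2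
    < m * ((p : ℝ) ^ (d - 1) * (2 * a1 * e' + ((d : ℝ) - 2) * q * e' ^ 2))

/-- Lines on which the quartic surface of the α-side (`d = 4`) may contain a rational line. -/
def Special (N : NF 4) (𝒮 : Finset ℂ) (e1 e2 : Fin 4 → ℤ) : Prop :=
  ∃ s ∈ 𝒮, N.PP e1 e2 0 1 * N.PP e1 e2 2 3 = s * (N.PP e1 e2 0 2 * N.PP e1 e2 1 3)

/-- All conjugate minors are at least `η` times the trivial size. -/
def Sep (N : NF d) (η : ℝ) (e1 e2 : Fin d → ℤ) : Prop :=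
  ∀ i j, i ≠ j → η * (‖e1‖ * ‖e2‖) ≤ ‖N.PP e1 e2 i j‖

/-- The quartic form vanishing on the squares `Y i = b i ^ 2` of the α-side surface (`d = 4`):
`∑_{i<j} w i w j (θ j - θ i) P i j Y i Y j` with `w i = ∏_{l ≠ i} (θ i - θ l)⁻¹`. -/
noncomputable def quart (N : NF 4) (e1 e2 : Fin 4 → ℤ) {Ω : Type} [CommRing Ω] [Algebra ℂ Ω]
    (y : Fin 4 → Ω) : Ω :=
  ∑ i, ∑ j, if i < j then
    algebraMap ℂ Ω ((∏ l ∈ Finset.univ.erase i, (N.θ i - N.θ l)⁻¹) *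
      (∏ l ∈ Finset.univ.erase j, (N.θ j - N.θ l)⁻¹) * (N.θ j - N.θ i) * N.PP e1 e2 i j) *
      (y i ^ 2 * y j ^ 2) else 0

end Crest.Agent.R22
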