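import Crest.Agent.R22.Defs

namespace Crest.Agent.R22

open Polynomial

private theorem disc1_aux {ε : ℝ} (g : ℕ → ℝ) (hg : ∀ a, 0 ≤ g a) {K : ℝ} (hK : 1 ≤ K) (T : ℕ)
    (h1 : ∀ p a : ℕ, 2 ≤ p → 1 ≤ a → g a ≤ K * ((p : ℝ) ^ ε) ^ a)
    (h2 : ∀ p a : ℕ, 2 ≤ p → T ≤ p → 1 ≤ a → g a ≤ ((p : ℝ) ^ ε) ^ a) {n : ℕ} (hn : n ≠ 0) :
    ∏ p ∈ n.primeFactors, g (n.factorization p) ≤ K ^ T * (n : ℝ) ^ ε := by
  have e1 : (n : ℝ) ^ ε = ∏ p ∈ n.primeFactors, ((p : ℝ) ^ ε) ^ n.factorization p := by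
    conv_lhs => rw [← Nat.prod_factorization_pow_eq_self hn, Finsupp.prod, Nat.support_factorization]
    push_cast
    rw [← Real.finsetProd_rpow _ _ fun p _ => by positivity]
    exact Finset.prod_congr rfl fun p _ => (Real.rpow_pow_comm (Nat.cast_nonneg p) _ _).symm
  have e2 : ∏ p ∈ n.primeFactors, (if p < T then K else 1) ≤ K ^ T := by
    rw [Finset.prod_ite, Finset.prod_const_one, mul_one, Finset.prod_const]
    refine pow_le_pow_right₀ hK ((Finset.card_le_card fun p hp => ?_).trans (Finset.card_range T).le)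
    exact Finset.mem_range.2 (Finset.mem_filter.1 hp).2
  refine le_trans ?_ (mul_le_mul_of_nonneg_right e2 (by positivity))
  rw [e1, ← Finset.prod_mul_distrib]
  refine Finset.prod_le_prod (fun p _ => hg _) fun p hp => ?_
  have hp1 := Nat.prime_of_mem_primeFactors hp
  have hp2 : 1 ≤ n.factorization p :=
    hp1.factorization_pos_of_dvd hn (Nat.dvd_of_mem_primeFactors hp)
  split_ifs with h
  · exact h1 _ _ hp1.two_le hp2
  · rw [one_mul]
    exact h2 _ _ hp1.two_le (not_lt.1 h) hp2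

private theorem disc1_T {ε : ℝ} (hε : 0 < ε) (B : ℝ) : ∃ T : ℕ, ∀ p : ℕ, T ≤ p → B ≤ (p : ℝ) ^ ε :=
  Filter.eventually_atTop.1 (((tendsto_rpow_atTop hε).comp
    tendsto_natCast_atTop_atTop).eventually_ge_atTop B)

/-- The divisor bound `d(n) ≤ C n^ε`: `d(n) / n^ε = ∏ (a + 1) / p^(a ε)`; the factor is `≤ 1` for
`p ≥ 2^(1/ε)` and `≤ C_ε` always. -/
theorem card_divisors_le (ε : ℝ) (hε : 0 < ε) : ∃ C : ℝ, 1 ≤ C ∧ ∀ n : ℕ, n ≠ 0 →
    (n.divisors.card : ℝ) ≤ C * (n : ℝ) ^ ε := by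
  obtain ⟨T, hT⟩ := disc1_T hε 2
  have hδ : 0 < (2 : ℝ) ^ ε - 1 := sub_pos.2 (Real.one_lt_rpow one_lt_two hε)
  have hK : 1 ≤ 1 + 1 / ((2 : ℝ) ^ ε - 1) := le_add_of_nonneg_right (by positivity)
  refine ⟨_, one_le_pow₀ hK (n := T), fun n hn => le_trans (le_of_eq ?_)
    (disc1_aux (fun a => (a : ℝ) + 1) (fun a => by positivity) hK T
      (fun p a hp _ => ?_) (fun p a _ hp _ => ?_) hn)⟩
  · rw [Nat.card_divisors hn]
    push_cast
    rfl
  · have h1 : (2 : ℝ) ^ ε ≤ (p : ℝ) ^ ε :=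
      Real.rpow_le_rpow (by norm_num) (by exact_mod_cast hp) hε.le
    have h2 : 1 + a * ((2 : ℝ) ^ ε - 1) ≤ ((p : ℝ) ^ ε) ^ a :=
      (one_add_mul_sub_le_pow (by linarith) a).trans (pow_le_pow_left₀ (by positivity) h1 a)
    refine le_trans ?_ (mul_le_mul_of_nonneg_left h2 (by linarith))
    generalize (2 : ℝ) ^ ε - 1 = δ at hδ
    have e : (1 + 1 / δ) * (1 + a * δ) = a + 1 + (a * δ + 1 / δ) := by
      field_simp
      ring
    rw [e]
    exact le_add_of_nonneg_right (by positivity)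
  · refine le_trans ?_ (pow_le_pow_left₀ (by norm_num) (hT p hp) a)
    have : a + 1 ≤ 2 ^ a := Nat.lt_two_pow_self
    exact_mod_cast this

/-- `B^ω(n) ≤ C n^ε`: each prime factor `p ≥ B^(1/ε)` has `B ≤ p^ε`; the others are boundedly many. -/
theorem pow_omega_le (B : ℕ) (ε : ℝ) (hε : 0 < ε) : ∃ C : ℝ, 1 ≤ C ∧ ∀ n : ℕ, n ≠ 0 →
    (B : ℝ) ^ n.primeFactors.card ≤ C * (n : ℝ) ^ ε := by
  obtain ⟨T, hT⟩ := disc1_T hε B
  have hK : (1 : ℝ) ≤ 1 + B := le_add_of_nonneg_right (by positivity)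
  have h0 : ∀ p : ℕ, 2 ≤ p → 1 ≤ (p : ℝ) ^ ε := fun p hp =>
    Real.one_le_rpow (by exact_mod_cast (by omega : 1 ≤ p)) hε.le
  refine ⟨_, one_le_pow₀ hK (n := T), fun n hn => le_trans (le_of_eq ?_)
    (disc1_aux (fun _ => (B : ℝ)) (fun a => by positivity) hK T
      (fun p a hp _ => ?_) (fun p a hp hp' ha => ?_) hn)⟩
  · rw [Finset.prod_const]
  · exact le_trans (by linarith) (le_mul_of_one_le_right (by linarith) (one_le_pow₀ (h0 p hp)))
  · exact (hT p hp').trans (le_self_pow₀ (h0 p hp) (by omega))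

end Crest.Agent.R22
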